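import Mathlib
import Vale.Agent.Lib.P208.Blocks

/-! # P208: the Lang-Plaut problem for block sparse sets -/

namespace Vale.Agent.Results.P208.BlockSparse

open Vale.Agent.P208

/-- every difference of two points of `X` lies in the sum of at most `m` of the subspaces `V i` -/
def SparseDifferences {H : Type} [NormedAddCommGroup H] [InnerProductSpace ℝ H] {ι : Type}
    (V : ι → Submodule ℝ H) (m : ℕ) (X : Set H) : Prop :=
  ∀ x ∈ X, ∀ y ∈ X, ∃ s : Finset ι, s.card ≤ m ∧ x - y ∈ ⨆ i ∈ s, V i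

/-- `X` doubling, differences of points of `X` in the sum of at most `m` of the pairwise
orthogonal subspaces `V i`, `dim (V i) ≤ q`: then `X` embeds in `ℝ^k` with distortion `D`, where
`k` and `D` depend only on the doubling constant, `m` and `q`. -/
def BlockSparseSetsEmbed : Prop :=
  ∀ N m q : ℕ, ∃ (k : ℕ) (D : ℝ), ∀ (H : Type) [NormedAddCommGroup H] [InnerProductSpace ℝ H]
    (ι : Type) (V : ι → Submodule ℝ H),
    (∀ i, FiniteDimensional ℝ (V i) ∧ Module.finrank ℝ (V i) ≤ q) → (∀ i j, i ≠ j → V i ⟂ V j) →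
    ∀ X : Set H, Doubles N X → SparseDifferences V m X → Embeds k D X

/-- `Y` a doubling metric space with a family of `A`-Lipschitz maps to `ℝ^q`, at most `m` of which
separate any two given points, and one of which does so at distance `≥ dist x y / A`: then `Y`
embeds in `ℝ^k` with distortion `D`, where `k` and `D` depend only on `N`, `m`, `q`, `A`. -/
def CoordinatesGiveEmbedding : Prop :=
  ∀ (N m q : ℕ) (A : ℝ), ∃ (k : ℕ) (D : ℝ), ∀ (Y : Type) [MetricSpace Y], Doubles N Y →
    ∀ (ι : Type) (π : ι → Y → EuclideanSpace ℝ (Fin q)),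
      (∀ x y, {i | π i x ≠ π i y}.encard ≤ m) →
      (∀ i x y, dist (π i x) (π i y) ≤ A * dist x y) →
      (∀ x y, x ≠ y → ∃ i, dist x y ≤ A * dist (π i x) (π i y)) →
      Embeds k D Y

/-- every bi-Lipschitz map of `X` to an `ℝ^k` fails to be affine on some segment contained in
`X` -/
def BendsEveryMap {H : Type} [NormedAddCommGroup H] [NormedSpace ℝ H] (X : Set H) : Prop :=
  ∀ (k : ℕ) (a b : ℝ), 0 < a → ∀ f : X → EuclideanSpace ℝ (Fin k),
    (∀ x y, a * dist x y ≤ dist (f x) (f y) ∧ dist (f x) (f y) ≤ b * dist x y) →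
    ∃ (x y z : X) (t : ℝ), 0 ≤ t ∧ t ≤ 1 ∧ segment ℝ x.1 y.1 ⊆ X ∧
      z.1 = (1 - t) • x.1 + t • y.1 ∧ f z ≠ (1 - t) • f x + t • f y

/-- in `ℓ²` there is a doubling set, any two points of which differ in at most three coordinates,
which embeds in some `ℝ^k`, but never by a map which is affine on the segments in the set -/
def SomeSparseSetBendsEveryMap : Prop :=
  ∃ X : Set Ell2, (∃ N, Doubles N X) ∧ (∃ k D, Embeds k D X) ∧
    (∀ x ∈ X, ∀ y ∈ X, {i | (x : ∀ _ : ℕ, ℝ) i ≠ (y : ∀ _ : ℕ, ℝ) i}.encard ≤ 3) ∧ BendsEveryMap X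

/-- **Main result.** -/
theorem result : BlockSparseSetsEmbed ∧ CoordinatesGiveEmbedding ∧ SomeSparseSetBendsEveryMap := by
  refine ⟨fun N m q => ?_, coordinates,
    book, ⟨320, book_doubles⟩, book_embeds, book_sparse, book_bends⟩
  obtain ⟨k, D, h⟩ := blocks N m q
  exact ⟨k, D, fun H _ _ ι V h1 h2 X hX hs =>
    h H ι V (fun i => (h1 i).1) (fun i => (h1 i).2) h2 X hX hs⟩

end Vale.Agent.Results.P208.BlockSparse
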