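import Mathlib
import Vale.Agent.Lib.P208.Defs
import Vale.Agent.Lib.P208.Assembly
import Vale.Agent.Lib.P208.NoAffine

/-! # P208: the Lang-Plaut problem for sets with sparse differences -/

namespace Vale.Agent.Results.P208.SparseSets

open Vale.Agent.P208

theorem identity_range {Y : Type} (φ : Y → Ell2) (i : ℕ) :
    ∃ g : (Set.range fun y => φ y i) → EuclideanSpace ℝ (Fin 1), BiLipschitzWith 1 g := by
  refine ⟨fun s => WithLp.toLp 2 (fun _ => (s : ℝ)), 1, one_pos, fun x y => ?_⟩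
  rw [EuclideanSpace.dist_eq, Subtype.dist_eq]
  simp only [Finset.univ_unique, Fin.default_eq_zero, Fin.isValue, Finset.sum_const,
    Finset.card_singleton, one_smul, one_mul]
  rw [Real.sqrt_sq dist_nonneg]
  exact ⟨le_refl _, le_refl _⟩

theorem orthonormal_single :
    Orthonormal ℝ (fun i : ℕ => (lp.single 2 i (1 : ℝ) : lp (fun _ : ℕ => ℝ) 2)) := by
  classical
  constructor
  · intro i
    have h := lp.norm_single (E := fun _ : ℕ => ℝ) (p := 2) (by norm_num) i (1 : ℝ)
    rw [h, norm_one]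
  · intro i j hij
    rw [lp.inner_single_left]
    simp [lp.single_apply, hij]

theorem sparse_part : SparseSetsEmbed := by
  intro N m
  obtain ⟨k, D, h⟩ := assembly.{0, 0, 0} N m 1 1 1
  refine ⟨k, D, fun X hX hs => ?_⟩
  refine h X hX ℕ (fun _ => ℝ) (fun x => (x : Ell2)) ?_ ?_ ?_
  · exact ⟨1, one_pos, fun x y => by rw [Subtype.dist_eq]; simp⟩
  · intro x y
    exact hs x x.2 y y.2
  · intro i
    exact identity_range _ i

/-- **Main result.** -/
theorem result : SparseSetsEmbed ∧ AssemblyPrinciple ∧ SegmentsMustBend := by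
  classical
  refine ⟨sparse_part, fun N m q D₀ D₁ => assembly.{0, 0, 0} N m q D₀ D₁, ?_⟩
  have he := orthonormal_single
  have hsparse : ∀ x ∈ bookSet (fun i : ℕ => (lp.single 2 i (1 : ℝ) : Ell2)),
      ∀ y ∈ bookSet (fun i : ℕ => (lp.single 2 i (1 : ℝ) : Ell2)),
        DifferAtMost 3 (x : ∀ _ : ℕ, ℝ) y := by
    rintro x ⟨t, τ, j, rfl, -⟩ y ⟨t', τ', j', rfl, -⟩
    have hsub : {i : ℕ | (pt (fun i : ℕ => (lp.single 2 i (1 : ℝ) : Ell2))
        t τ j) i ≠ (pt (fun i : ℕ => (lp.single 2 i (1 : ℝ) : Ell2))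
        t' τ' j') i} ⊆ (({0, j + 1, j' + 1} : Finset ℕ) : Set ℕ) := by
      intro i hi
      by_contra hcon
      simp only [Finset.coe_insert, Finset.coe_singleton, Set.mem_insert_iff,
        Set.mem_singleton_iff, not_or] at hcon
      obtain ⟨h0, h1, h2⟩ := hcon
      apply hi
      have key : ∀ (t τ : ℝ) (j : ℕ), ¬ i = j + 1 →
          (pt (fun i : ℕ => (lp.single 2 i (1 : ℝ) : Ell2)) t τ j) i = 0 := by
        intro t τ j hj
        have e0 : (lp.single 2 0 (1 : ℝ) : Ell2) i = 0 :=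
          lp.single_apply_ne (E := fun _ : ℕ => ℝ) 2 0 (1 : ℝ) h0
        have e1 : (lp.single 2 (j + 1) (1 : ℝ) : Ell2) i = 0 :=
          lp.single_apply_ne (E := fun _ : ℕ => ℝ) 2 (j + 1) (1 : ℝ) hj
        change t * ((lp.single 2 0 (1 : ℝ) : Ell2) i)
          + τ * ((lp.single 2 (j + 1) (1 : ℝ) : Ell2) i) = 0
        rw [e0, e1, mul_zero, mul_zero, add_zero]
      rw [key t τ j h1, key t' τ' j' h2]
    unfold DifferAtMost
    refine (Set.encard_le_encard hsub).trans ?_
    rw [Set.encard_coe_eq_coe_finsetCard]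
    exact_mod_cast Finset.card_le_three
  refine ⟨bookSet (fun i : ℕ => (lp.single 2 i (1 : ℝ) : Ell2)),
    ⟨320, bookSet_doubling he⟩, hsparse, ?_, fun k D f hf => no_affine he k D f hf⟩
  obtain ⟨k, D, h⟩ := sparse_part 320 3
  exact ⟨k, D, h _ (bookSet_doubling he) (by exact_mod_cast hsparse)⟩

end Vale.Agent.Results.P208.SparseSets
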